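import Vale.Agent.P181.PL.Basic

set_option autoImplicit false

/-!
# P181, PL: the common numbers of the cases 3 and 4
-/

namespace Vale.Agent.P181.PL508

open Vale.Agent.P181.T4 (ex low)
open Vale.Agent.P181.H280 (plethMult)
open Vale.Agent.P181.H463 (gt)
open Vale.Agent.P181.PL

lemma X_facts {a X : ℕ} (ha : 1 ≤ a) (h : 10 ^ 12 * (1 + Real.log a) ^ 7 ≤ X) :
    10 ^ 12 ≤ X ∧ 10 ^ 12 * Real.log a ≤ X ∧ 10 ^ 12 * (1 + Real.log a) ^ 6 ≤ X ∧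
      ∃ K, 1 ≤ K ∧ 1000 * K ≤ X ∧ 4 * a ^ 3 ≤ 2 ^ K := by
  have ha' : (1 : ℝ) ≤ a := by exact_mod_cast ha
  have hL : 0 ≤ Real.log a := Real.log_nonneg ha'
  have h1 : (1 : ℝ) ≤ 1 + Real.log a := by linarith
  have h2 : (1 + Real.log a) ^ 1 ≤ (1 + Real.log a) ^ 7 := pow_le_pow_right₀ h1 (by norm_num)
  have h3 : (1 + Real.log a) ^ 6 ≤ (1 + Real.log a) ^ 7 := pow_le_pow_right₀ h1 (by norm_num)
  rw [pow_one] at h2
  have h4 : (10 : ℝ) ^ 12 * (1 + Real.log a) ≤ X :=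
    (mul_le_mul_of_nonneg_left h2 (by positivity)).trans h
  refine ⟨?_, ?_, (mul_le_mul_of_nonneg_left h3 (by positivity)).trans h, ⌈5 * Real.log a⌉₊ + 2,
    by omega, ?_, ?_⟩
  · have h5 : ((10 ^ 12 : ℕ) : ℝ) ≤ X := by
      push_cast
      nlinarith
    exact_mod_cast h5
  · nlinarith
  · have h5 : (⌈5 * Real.log a⌉₊ : ℝ) < 5 * Real.log a + 1 := Nat.ceil_lt_add_one (by positivity)
    have h6 : ((1000 * (⌈5 * Real.log a⌉₊ + 2) : ℕ) : ℝ) ≤ X := by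
      push_cast
      nlinarith
    exact_mod_cast h6
  · have h5 : 5 * Real.log a ≤ (⌈5 * Real.log a⌉₊ : ℝ) := Nat.le_ceil _
    have h6 : (0.6931471803 : ℝ) < Real.log 2 := Real.log_two_gt_d9
    have h7 : ((4 * a ^ 3 : ℕ) : ℝ) ≤ ((2 ^ (⌈5 * Real.log a⌉₊ + 2) : ℕ) : ℝ) := by
      push_cast
      have h8 : (4 : ℝ) * (a : ℝ) ^ 3 = Real.exp (2 * Real.log 2 + 3 * Real.log a) := by
        have e1 : Real.exp (2 * Real.log 2) = 4 := by
          rw [show 2 * Real.log 2 = Real.log 2 + Real.log 2 by ring, Real.exp_add,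
            Real.exp_log (by norm_num)]
          norm_num
        have e2 : Real.exp (3 * Real.log a) = (a : ℝ) ^ 3 := by
          have := Real.exp_nat_mul (Real.log a) 3
          rw [Real.exp_log (by linarith)] at this
          rw [← this]
          norm_num
        rw [Real.exp_add, e1, e2]
      have h9 : (2 : ℝ) ^ (⌈5 * Real.log a⌉₊ + 2) =
          Real.exp (((⌈5 * Real.log a⌉₊ + 2 : ℕ) : ℝ) * Real.log 2) := by
        rw [Real.exp_nat_mul, Real.exp_log (by norm_num)]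
      rw [h8, h9]
      apply Real.exp_le_exp.2
      push_cast
      nlinarith
    exact_mod_cast h7

lemma pow_bound {a w m N : ℕ} (ha : 1 ≤ a) (hw : w + 1 ≤ a ^ 2)
    (h : 1 + 2 * (m : ℝ) * Real.log a ≤ N) :
    2 * ((w : ℝ) + 1) ^ m ≤ Real.exp N := by
  have ha' : (1 : ℝ) ≤ a := by exact_mod_cast ha
  have h1 : (2 : ℝ) ≤ Real.exp 1 := by
    have := Real.add_one_le_exp (1 : ℝ)
    linarith
  have h2 : (w : ℝ) + 1 ≤ Real.exp (2 * Real.log a) := by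
    have e2 : Real.exp (2 * Real.log a) = (a : ℝ) ^ 2 := by
      have := Real.exp_nat_mul (Real.log a) 2
      rw [Real.exp_log (by linarith)] at this
      rw [← this]
      norm_num
    rw [e2]
    exact_mod_cast hw
  have h3 : ((w : ℝ) + 1) ^ m ≤ Real.exp ((m : ℝ) * (2 * Real.log a)) := by
    rw [Real.exp_nat_mul]
    exact pow_le_pow_left₀ (by positivity) h2 m
  calc 2 * ((w : ℝ) + 1) ^ m ≤ Real.exp 1 * Real.exp ((m : ℝ) * (2 * Real.log a)) :=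
        mul_le_mul h1 h3 (by positivity) (Real.exp_pos _).le
    _ = Real.exp (1 + 2 * (m : ℝ) * Real.log a) := by
        rw [← Real.exp_add]
        congr 1
        ring
    _ ≤ Real.exp N := Real.exp_le_exp.2 h

lemma to_nat {g P w m N : ℕ} (h : (g : ℝ) * Real.exp N ≤ P)
    (h2 : 2 * ((w : ℝ) + 1) ^ m ≤ Real.exp N) : 2 * ((w + 1) ^ m * g) ≤ P := by
  have h3 : ((2 * ((w + 1) ^ m * g) : ℕ) : ℝ) ≤ P := by
    push_cast
    calc 2 * (((w : ℝ) + 1) ^ m * g) = g * (2 * ((w : ℝ) + 1) ^ m) := by ring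
      _ ≤ g * Real.exp N := mul_le_mul_of_nonneg_left h2 (Nat.cast_nonneg _)
      _ ≤ P := h
  exact_mod_cast h3

/-- the numbers `Z`, `K` -/
lemma common {a b n X : ℕ} {lam : Fin n → ℕ} (h : Hy a b n X lam)
    (hw : dn lam 1 * X ^ 4 < a ^ 2) :
    1 ≤ a ∧ 10 ^ 12 ≤ X ∧ 10 ^ 12 * Real.log a ≤ X ∧ 10 ^ 12 * (1 + Real.log a) ^ 6 ≤ X ∧
    dn lam 1 + 1 ≤ a ^ 2 ∧ a * X ^ 6000 ≤ 2 * dn lam 2 ∧ dn lam 2 ≤ dn lam 1 ∧
    ∃ Z K, Z ^ 2 ≤ dn lam 1 ∧ dn lam 1 < (Z + 1) ^ 2 ∧ X ^ 12999 ≤ Z ∧ Z * X ^ 2 < a ∧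
      1 ≤ K ∧ 16 * K + 16 ≤ X ∧ 4 * dn lam 1 ≤ X ^ K ∧ 100 * K * ((Z + 1) * X) ≤ a := by
  obtain ⟨_, hsum, _, hna, hb2, hab, hXa, hlog, hD2, h1⟩ := h
  have ha : 1 ≤ a := by
    by_contra hcon
    have : a = 0 := by omega
    subst this
    rw [zero_mul] at hsum
    have h2 := ex_le_dn lam 1
    have h3 := dn_anti lam (Nat.zero_le 1)
    rw [dn_zero, hsum] at h3
    omega
  obtain ⟨hX, hl1, hl6, K, hK1, hK2, hK3⟩ := X_facts ha hlog
  obtain ⟨w, hwdef⟩ : ∃ w, w = dn lam 1 := ⟨_, rfl⟩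
  rw [← hwdef] at hw ⊢
  have hX1 : 1 ≤ X := le_trans (by norm_num) hX
  have hX4 : 1 ≤ X ^ 4 := Nat.one_le_pow _ _ hX1
  have hwa : w + 1 ≤ a ^ 2 := by
    have : w * 1 ≤ w * X ^ 4 := Nat.mul_le_mul_left _ hX4
    omega
  have hDD : dn lam 2 ≤ w := by
    rw [hwdef]
    exact dn_anti lam (by norm_num)
  have hbig : a * X ^ 6000 ≤ 2 * dn lam 2 := hab.trans hD2
  refine ⟨ha, hX, hl1, hl6, hwa, hbig, hDD, Nat.sqrt w, K, Nat.sqrt_le' w, Nat.lt_succ_sqrt' w,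
    ?_, ?_, hK1, by omega, ?_, ?_⟩
  · have hZ2 := Nat.lt_succ_sqrt' w
    by_contra hcon
    have h2 : (Nat.sqrt w).succ ≤ X ^ 12999 := by
      rw [Nat.succ_eq_add_one]
      omega
    have h3 : (Nat.sqrt w).succ ^ 2 ≤ (X ^ 12999) ^ 2 := Nat.pow_le_pow_left h2 2
    have h4 : X ^ 20000 * X ^ 6000 ≤ a * X ^ 6000 := Nat.mul_le_mul_right _ hXa
    have h5 : X ^ 20000 * X ^ 6000 = X ^ 2 * (X ^ 12999) ^ 2 := by ring
    have h6 : 2 * (X ^ 12999) ^ 2 ≤ X ^ 2 * (X ^ 12999) ^ 2 := by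
      apply Nat.mul_le_mul_right
      have : X * 1 ≤ X * X := Nat.mul_le_mul_left _ hX1
      rw [sq]
      omega
    omega
  · have h2 : (Nat.sqrt w * X ^ 2) ^ 2 < a ^ 2 := by
      calc (Nat.sqrt w * X ^ 2) ^ 2 = (Nat.sqrt w) ^ 2 * X ^ 4 := by ring
        _ ≤ w * X ^ 4 := Nat.mul_le_mul_right _ (Nat.sqrt_le' w)
        _ < a ^ 2 := hw
    exact lt_of_pow_lt_pow_left₀ 2 (Nat.zero_le _) h2
  · have h2 : a ^ 2 ≤ a ^ 3 := Nat.pow_le_pow_right ha (by norm_num)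
    have h3 : 2 ^ K ≤ X ^ K := Nat.pow_le_pow_left (by omega) K
    omega
  · obtain ⟨Z, hZ⟩ : ∃ Z, Z = Nat.sqrt w := ⟨_, rfl⟩
    rw [← hZ]
    have h2 : (Z * X ^ 2) ^ 2 < a ^ 2 := by
      calc (Z * X ^ 2) ^ 2 = Z ^ 2 * X ^ 4 := by ring
        _ ≤ w * X ^ 4 := Nat.mul_le_mul_right _ (by rw [hZ]; exact Nat.sqrt_le' w)
        _ < a ^ 2 := hw
    have h3 : Z * X ^ 2 < a := lt_of_pow_lt_pow_left₀ 2 (Nat.zero_le _) h2
    have h4 : X ^ 2 ≤ a := (Nat.pow_le_pow_right hX1 (by norm_num)).trans hXa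
    have h5 : 10 * (100 * K * ((Z + 1) * X)) ≤ X * ((Z + 1) * X) := by
      calc 10 * (100 * K * ((Z + 1) * X)) = 1000 * K * ((Z + 1) * X) := by ring
        _ ≤ X * ((Z + 1) * X) := Nat.mul_le_mul_right _ hK2
    have h6 : X * ((Z + 1) * X) = Z * X ^ 2 + X ^ 2 := by ring
    omega

end Vale.Agent.P181.PL508
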